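import Vale.Agent.P141.PL.Defs1

/-!
# P141: the cost statement for the four roles from role 0
-/

namespace Vale.Agent.P141.PL.H321

open Finset Vale.Agent.P141.PL

noncomputable section

/-! ### Transpositions of the coordinates of a face -/

/-- swap the first two coordinates -/
def t12 (p : Pt) : Pt := (p.2.1, p.1, p.2.2)
/-- swap the last two coordinates -/
def t23 (p : Pt) : Pt := (p.1, p.2.2, p.2.1)

@[simp] theorem t12_t12 (p : Pt) : t12 (t12 p) = p := rfl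
@[simp] theorem t23_t23 (p : Pt) : t23 (t23 p) = p := rfl

theorem s12_eq (F : Pt → ℝ) : s12 F = fun p => F (t12 p) := rfl
theorem s23_eq (F : Pt → ℝ) : s23 F = fun p => F (t23 p) := rfl

theorem mem_cube3_t12 {l : ℕ} {p q : Pt} : t12 q ∈ H315.cube3 l (t12 p) ↔ q ∈ H315.cube3 l p := by
  simp only [H315.mem_cube3, t12]; tauto

theorem mem_cube3_t23 {l : ℕ} {p q : Pt} : t23 q ∈ H315.cube3 l (t23 p) ↔ q ∈ H315.cube3 l p := by
  simp only [H315.mem_cube3, t23]; tauto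

theorem sum_cube_t12 {β : Type*} [AddCommMonoid β] (l : ℕ) (p : Pt) (f : Pt → β) :
    ∑ q ∈ H315.cube3 l p, f (t12 q) = ∑ q ∈ H315.cube3 l (t12 p), f q := by
  refine sum_bij' (fun q _ => t12 q) (fun q _ => t12 q) ?_ ?_ ?_ ?_ ?_
  · intro q hq; exact mem_cube3_t12.mpr hq
  · intro q hq
    have : t12 (t12 q) ∈ H315.cube3 l (t12 p) := hq
    exact mem_cube3_t12.mp this
  · intro q _; rfl
  · intro q _; rfl
  · intro q _; rfl

theorem sum_cube_t23 {β : Type*} [AddCommMonoid β] (l : ℕ) (p : Pt) (f : Pt → β) :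
    ∑ q ∈ H315.cube3 l p, f (t23 q) = ∑ q ∈ H315.cube3 l (t23 p), f q := by
  refine sum_bij' (fun q _ => t23 q) (fun q _ => t23 q) ?_ ?_ ?_ ?_ ?_
  · intro q hq; exact mem_cube3_t23.mpr hq
  · intro q hq
    have : t23 (t23 q) ∈ H315.cube3 l (t23 p) := hq
    exact mem_cube3_t23.mp this
  · intro q _; rfl
  · intro q _; rfl
  · intro q _; rfl

theorem avg_t12 (l : ℕ) (p : Pt) (f : Pt → ℝ) :
    H315.avg (H315.cube3 l p) (fun q => f (t12 q)) = H315.avg (H315.cube3 l (t12 p)) f := by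
  unfold H315.avg
  rw [sum_cube_t12, H315.card_cube3, H315.card_cube3]

theorem avg_t23 (l : ℕ) (p : Pt) (f : Pt → ℝ) :
    H315.avg (H315.cube3 l p) (fun q => f (t23 q)) = H315.avg (H315.cube3 l (t23 p)) f := by
  unfold H315.avg
  rw [sum_cube_t23, H315.card_cube3, H315.card_cube3]

theorem mx_t12 (l : ℕ) (p : Pt) (f : Pt → ℝ) :
    H315.mx (H315.cube3 l p) (fun q => f (t12 q)) = H315.mx (H315.cube3 l (t12 p)) f := by
  apply le_antisymm
  · refine H315.mx_le (H315.mx_nonneg _ _) fun q hq => ?_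
    exact H315.abs_le_mx (mem_cube3_t12.mpr hq) f
  · refine H315.mx_le (H315.mx_nonneg _ _) fun q hq => ?_
    have h : t12 q ∈ H315.cube3 l p := by
      have : t12 (t12 q) ∈ H315.cube3 l (t12 p) := hq
      exact mem_cube3_t12.mp this
    exact H315.abs_le_mx h (fun q => f (t12 q))

theorem mx_t23 (l : ℕ) (p : Pt) (f : Pt → ℝ) :
    H315.mx (H315.cube3 l p) (fun q => f (t23 q)) = H315.mx (H315.cube3 l (t23 p)) f := by
  apply le_antisymm
  · refine H315.mx_le (H315.mx_nonneg _ _) fun q hq => ?_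
    exact H315.abs_le_mx (mem_cube3_t23.mpr hq) f
  · refine H315.mx_le (H315.mx_nonneg _ _) fun q hq => ?_
    have h : t23 q ∈ H315.cube3 l p := by
      have : t23 (t23 q) ∈ H315.cube3 l (t23 p) := hq
      exact mem_cube3_t23.mp this
    exact H315.abs_le_mx h (fun q => f (t23 q))

theorem Nm_t12 (e : ℝ) (l : ℕ) (p : Pt) (f : Pt → ℝ) :
    H315.Nm e (H315.cube3 l p) (fun q => f (t12 q)) = H315.Nm e (H315.cube3 l (t12 p)) f := by
  unfold H315.Nm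
  rw [mx_t12, avg_t12 l p (fun q => f q ^ 2)]

theorem Nm_t23 (e : ℝ) (l : ℕ) (p : Pt) (f : Pt → ℝ) :
    H315.Nm e (H315.cube3 l p) (fun q => f (t23 q)) = H315.Nm e (H315.cube3 l (t23 p)) f := by
  unfold H315.Nm
  rw [mx_t23, avg_t23 l p (fun q => f q ^ 2)]

/-- the transposed atoms -/
def u12 (u : H315.Tri) : H315.Tri := (fun w => u.1 (w.2, w.1), u.2.2, u.2.1)
/-- the transposed atoms -/
def u23 (u : H315.Tri) : H315.Tri := (u.2.1, u.1, fun w => u.2.2 (w.2, w.1))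

theorem atm_t12 (u : H315.Tri) (q : Pt) : H315.atm u (t12 q) = H315.atm (u12 u) q := by
  unfold H315.atm H315.e12 H315.e13 H315.e23 u12 t12; ring

theorem atm_t23 (u : H315.Tri) (q : Pt) : H315.atm u (t23 q) = H315.atm (u23 u) q := by
  unfold H315.atm H315.e12 H315.e13 H315.e23 u23 t23; ring

theorem wN_t12 (δ e : ℝ) (l : ℕ) (p : Pt) (u : H315.Tri) :
    H315.wN δ e l (t12 p) (u12 u) = H315.wN δ e l p u := by
  unfold H315.wN
  rw [← Nm_t12, ← Nm_t12, ← Nm_t12]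
  have h1 : (fun q => H315.e12 (u12 u).1 (t12 q)) = H315.e12 u.1 := rfl
  have h2 : (fun q => H315.e13 (u12 u).2.1 (t12 q)) = H315.e23 u.2.2 := rfl
  have h3 : (fun q => H315.e23 (u12 u).2.2 (t12 q)) = H315.e13 u.2.1 := rfl
  rw [h1, h2, h3]; ring

theorem wN_t23 (δ e : ℝ) (l : ℕ) (p : Pt) (u : H315.Tri) :
    H315.wN δ e l (t23 p) (u23 u) = H315.wN δ e l p u := by
  unfold H315.wN
  rw [← Nm_t23, ← Nm_t23, ← Nm_t23]
  have h1 : (fun q => H315.e12 (u23 u).1 (t23 q)) = H315.e13 u.2.1 := rfl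
  have h2 : (fun q => H315.e13 (u23 u).2.1 (t23 q)) = H315.e12 u.1 := rfl
  have h3 : (fun q => H315.e23 (u23 u).2.2 (t23 q)) = H315.e23 u.2.2 := rfl
  rw [h1, h2, h3]; ring

/-- Companions are stable under the transpositions. -/
theorem Comp.s12 {n : ℕ} {e δ Λ : ℝ} {G : ℕ → Pt → ℝ} (h : Comp n e δ Λ G) :
    Comp n e δ Λ (fun k => s12 (G k)) where
  unif k l hk hl p u := by
    have h1 := h.unif k l hk hl (t12 p) (u12 u)
    rw [wN_t12, ← avg_t12] at h1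
    refine le_trans (le_of_eq ?_) h1
    congr 2
    funext q
    show G k (t12 q) * _ = G k (t12 q) * _
    rw [atm_t12]; rfl
  line1 k l hk hl m y z := h.line2 k l hk hl y m z
  line2 k l hk hl x m z := h.line1 k l hk hl m x z
  line3 k l hk hl x y m := h.line3 k l hk hl y x m
  win1 l hl J j hJ hj m y z := h.win2 l hl J j hJ hj y m z
  win2 l hl J j hJ hj x m z := h.win1 l hl J j hJ hj m x z
  win3 l hl J j hJ hj x y m := h.win3 l hl J j hJ hj y x m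

theorem Comp.s23 {n : ℕ} {e δ Λ : ℝ} {G : ℕ → Pt → ℝ} (h : Comp n e δ Λ G) :
    Comp n e δ Λ (fun k => s23 (G k)) where
  unif k l hk hl p u := by
    have h1 := h.unif k l hk hl (t23 p) (u23 u)
    rw [wN_t23, ← avg_t23] at h1
    refine le_trans (le_of_eq ?_) h1
    congr 2
    funext q
    show G k (t23 q) * _ = G k (t23 q) * _
    rw [atm_t23]; rfl
  line1 k l hk hl m y z := h.line1 k l hk hl m z y
  line2 k l hk hl x m z := h.line3 k l hk hl x z m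
  line3 k l hk hl x y m := h.line2 k l hk hl x m y
  win1 l hl J j hJ hj m y z := h.win1 l hl J j hJ hj m z y
  win2 l hl J j hJ hj x m z := h.win3 l hl J j hJ hj x z m
  win3 l hl J j hJ hj x y m := h.win2 l hl J j hJ hj x m y

/-- Monotonicity in the constants. -/
theorem Comp.mono {n : ℕ} {e δ δ' Λ Λ' : ℝ} {G : ℕ → Pt → ℝ} (h : Comp n e δ Λ G) (h1 : δ ≤ δ')
    (h2 : Λ ≤ Λ') : Comp n e δ' Λ' G where
  unif k l hk hl p u := (h.unif k l hk hl p u).trans (by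
    unfold H315.wN
    refine mul_le_mul_of_nonneg_right h1 ?_
    have := H315.Nm_nonneg e (H315.cube3 l p) (H315.e12 u.1)
    have := H315.Nm_nonneg e (H315.cube3 l p) (H315.e13 u.2.1)
    have := H315.Nm_nonneg e (H315.cube3 l p) (H315.e23 u.2.2)
    positivity)
  line1 k l hk hl m y z := (h.line1 k l hk hl m y z).trans (by gcongr)
  line2 k l hk hl m y z := (h.line2 k l hk hl m y z).trans (by gcongr)
  line3 k l hk hl m y z := (h.line3 k l hk hl m y z).trans (by gcongr)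
  win1 l hl J j hJ hj m y z := (h.win1 l hl J j hJ hj m y z).trans (by gcongr)
  win2 l hl J j hJ hj m y z := (h.win2 l hl J j hJ hj m y z).trans (by gcongr)
  win3 l hl J j hJ hj m y z := (h.win3 l hl J j hJ hj m y z).trans (by gcongr)

/-- Restriction to a smaller number of scales. -/
theorem Comp.le {n n' : ℕ} {e δ Λ : ℝ} {G : ℕ → Pt → ℝ} (h : Comp n e δ Λ G) (hn : n' ≤ n) :
    Comp n' e δ Λ G where
  unif k l hk hl p u := h.unif k l hk (hl.trans hn) p u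
  line1 k l hk hl m y z := h.line1 k l hk (hl.trans hn) m y z
  line2 k l hk hl m y z := h.line2 k l hk (hl.trans hn) m y z
  line3 k l hk hl m y z := h.line3 k l hk (hl.trans hn) m y z
  win1 l hl J j hJ hj m y z := h.win1 l (hl.trans hn) J j hJ hj m y z
  win2 l hl J j hJ hj m y z := h.win2 l (hl.trans hn) J j hJ hj m y z
  win3 l hl J j hJ hj m y z := h.win3 l (hl.trans hn) J j hJ hj m y z

/-! ### The four roles -/

/-- The box over the face-`j` cube of `z`. -/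
def bo1 (o : ℤ) (k : ℕ) (z : Pt) : Bx :=
  (ix k z.1, o - 2 - ix k z.1 - ix k z.2.1 - ix k z.2.2, ix k z.2.1, ix k z.2.2)
@[inherit_doc bo1] def bo2 (o : ℤ) (k : ℕ) (z : Pt) : Bx :=
  (ix k z.1, ix k z.2.1, o - 2 - ix k z.1 - ix k z.2.1 - ix k z.2.2, ix k z.2.2)
@[inherit_doc bo1] def bo3 (o : ℤ) (k : ℕ) (z : Pt) : Bx :=
  (ix k z.1, ix k z.2.1, ix k z.2.2, o - 2 - ix k z.1 - ix k z.2.1 - ix k z.2.2)

/-- The normalised local form of an atom of face `1, 2, 3`. -/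
def L1 (o : ℤ) (k : ℕ) (z : Pt) (u : H315.Tri) (G0 G2 G3 : Pt → ℝ) : ℝ :=
  (16 ^ k : ℝ)⁻¹ * loc k (bo1 o k z) G0 (H315.atm u) G2 G3
@[inherit_doc L1] def L2 (o : ℤ) (k : ℕ) (z : Pt) (u : H315.Tri) (G0 G1 G3 : Pt → ℝ) : ℝ :=
  (16 ^ k : ℝ)⁻¹ * loc k (bo2 o k z) G0 G1 (H315.atm u) G3
@[inherit_doc L1] def L3 (o : ℤ) (k : ℕ) (z : Pt) (u : H315.Tri) (G0 G1 G2 : Pt → ℝ) : ℝ :=
  (16 ^ k : ℝ)⁻¹ * loc k (bo3 o k z) G0 G1 G2 (H315.atm u)

theorem L1_eq (o : ℤ) (k : ℕ) (z : Pt) (u : H315.Tri) (G0 G2 G3 : Pt → ℝ) :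
    L1 o k z u G0 G2 G3 = L0 o k z u G0 (s12 G2) (s12 G3) := by
  unfold L1 L0
  rw [← loc_swap01]; rfl

theorem L2_eq (o : ℤ) (k : ℕ) (z : Pt) (u : H315.Tri) (G0 G1 G3 : Pt → ℝ) :
    L2 o k z u G0 G1 G3 = L1 o k z u (s12 G0) G1 (s23 G3) := by
  unfold L2 L1
  rw [← loc_swap12]; rfl

theorem L3_eq (o : ℤ) (k : ℕ) (z : Pt) (u : H315.Tri) (G0 G1 G2 : Pt → ℝ) :
    L3 o k z u G0 G1 G2 = L2 o k z u (s23 G0) (s23 G1) G2 := by
  unfold L3 L2
  rw [← loc_swap23]; rfl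

/-- The cost statement with explicit constants, one role. `L k z u` is the normalised local form
as a function of the scale, the point and the atom. -/
def CostB (n K : ℕ) (δ B : ℝ) (L : ℕ → Pt → H315.Tri → ℝ) : Prop :=
  ∀ (x : Pt) (u : H315.Tri), ∑ k ∈ Icc 1 K, ∑ z ∈ H315.cube3 K x, |L k z u| ≤
    B * H315.wt δ (ee n) (H315.cube3 K x) u

/-- **COST, all roles.** -/
def StCostAll : Prop := ∃ C : ℝ, ∃ q : ℕ, 0 ≤ C ∧ ∀ n : ℕ, 1 ≤ n → ∀ (δ Λ : ℝ), 0 < δ → 1 ≤ Λ →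
  ∀ o : ℤ, |o| = 1 → ∀ G0 G1 G2 G3 : ℕ → Pt → ℝ, ∀ K ≤ n,
    (Comp n (ee n) δ Λ G1 → Comp n (ee n) δ Λ G2 → Comp n (ee n) δ Λ G3 →
      CostB n K δ (C * ((2 + Real.log n) * Λ) ^ q) (fun k z u => L0 o k z u (G1 k) (G2 k) (G3 k))) ∧
    (Comp n (ee n) δ Λ G0 → Comp n (ee n) δ Λ G2 → Comp n (ee n) δ Λ G3 →
      CostB n K δ (C * ((2 + Real.log n) * Λ) ^ q) (fun k z u => L1 o k z u (G0 k) (G2 k) (G3 k))) ∧
    (Comp n (ee n) δ Λ G0 → Comp n (ee n) δ Λ G1 → Comp n (ee n) δ Λ G3 →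
      CostB n K δ (C * ((2 + Real.log n) * Λ) ^ q) (fun k z u => L2 o k z u (G0 k) (G1 k) (G3 k))) ∧
    (Comp n (ee n) δ Λ G0 → Comp n (ee n) δ Λ G1 → Comp n (ee n) δ Λ G2 →
      CostB n K δ (C * ((2 + Real.log n) * Λ) ^ q) (fun k z u => L3 o k z u (G0 k) (G1 k) (G2 k)))

theorem stCostAll_of_stCost (h : StCost) : StCostAll := by
  obtain ⟨C, q, hC, h⟩ := h
  refine ⟨C, q, hC, fun n hn δ Λ hδ hΛ o ho G0 G1 G2 G3 K hK => ⟨?_, ?_, ?_, ?_⟩⟩
  · intro c1 c2 c3 x u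
    exact h n hn δ Λ hδ hΛ o ho G1 G2 G3 c1 c2 c3 K hK x u
  · intro c0 c2 c3 x u
    simp only [L1_eq]
    exact h n hn δ Λ hδ hΛ o ho _ _ _ c0 (Comp.s12 c2) (Comp.s12 c3) K hK x u
  · intro c0 c1 c3 x u
    simp only [L2_eq, L1_eq]
    exact h n hn δ Λ hδ hΛ o ho _ _ _ (Comp.s12 c0) (Comp.s12 c1) (Comp.s12 (Comp.s23 c3)) K hK x u
  · intro c0 c1 c2 x u
    simp only [L3_eq, L2_eq, L1_eq]
    exact h n hn δ Λ hδ hΛ o ho _ _ _ (Comp.s12 (Comp.s23 c0)) (Comp.s12 (Comp.s23 c1))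
      (Comp.s12 (Comp.s23 c2)) K hK x u

end

end Vale.Agent.P141.PL.H321
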